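import Crest.Agent.N346.Id.Defs

-- ▼ part N346/Id/Lin
section

/-!
Row 346, Part 1 (helper90): linear algebra and smoothness for `mat`, `shp`, `tv`, traces.
-/

set_option autoImplicit false

open scoped ContDiff Topology
open Filter Set
open Crest.GeometryTopology.CoordMetric Crest.MathPhysics.ExteriorData
open Crest.Agent.R202.Tens Crest.Agent.R247.Bo84

noncomputable section

namespace Crest.Agent.N346.Id

variable {n : ℕ}

/-- the standard basis vector -/
abbrev ee (i : Fin n) : E n := EuclideanSpace.single i (1:ℝ)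

lemma mat_apply (M : Matrix (Fin n) (Fin n) ℝ) (Y : E n) (i : Fin n) :
    mat M Y i = ∑ j, M i j * Y j := by
  simp only [mat, sum_apply, smul_apply,
    ContinuousLinearMap.smulRight_apply, PiLp.smul_apply, smul_eq_mul, WithLp.ofLp_sum,
    Finset.sum_apply, prj_apply, PiLp.single_apply]
  rw [Finset.sum_eq_single i]
  · simp
  · intro b _ hb
    simp [hb.symm]
  · simp

lemma mat_ee (M : Matrix (Fin n) (Fin n) ℝ) (i j : Fin n) : mat M (ee j) i = M i j := by
  rw [mat_apply, Finset.sum_eq_single j]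
  · simp
  · intro b _ hb
    simp [hb]
  · simp

lemma bil_ee (M : Matrix (Fin n) (Fin n) ℝ) (i j : Fin n) : bil M (ee i) (ee j) = M i j := by
  rw [bil_apply, Finset.sum_eq_single i]
  · rw [Finset.sum_eq_single j]
    · simp
    · intro b _ hb
      simp [hb]
    · simp
  · intro b _ hb
    simp [hb]
  · simp

lemma bil_eq_mat (M : Matrix (Fin n) (Fin n) ℝ) (Y Z : E n) :
    bil M Y Z = ∑ i, Y i * mat M Z i := by
  rw [bil_apply]
  refine Finset.sum_congr rfl fun i _ => ?_
  rw [mat_apply, Finset.mul_sum]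
  exact Finset.sum_congr rfl fun j _ => by ring

lemma mat_mul (M N : Matrix (Fin n) (Fin n) ℝ) (Y : E n) : mat (M * N) Y = mat M (mat N Y) := by
  ext i
  simp only [mat_apply, Matrix.mul_apply, Finset.sum_mul, Finset.mul_sum]
  rw [Finset.sum_comm]
  exact Finset.sum_congr rfl fun j _ => Finset.sum_congr rfl fun k _ => by ring

lemma mat_one (Y : E n) : mat (1 : Matrix (Fin n) (Fin n) ℝ) Y = Y := by
  ext i
  simp [mat_apply, Matrix.one_apply]

lemma mat_add (M N : Matrix (Fin n) (Fin n) ℝ) : mat (M + N) = mat M + mat N := by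
  ext Y i
  simp [mat_apply, add_mul, Finset.sum_add_distrib]

lemma mat_sub (M N : Matrix (Fin n) (Fin n) ℝ) : mat (M - N) = mat M - mat N := by
  ext Y i
  simp [mat_apply, sub_mul, Finset.sum_sub_distrib]

lemma mat_smul (c : ℝ) (M : Matrix (Fin n) (Fin n) ℝ) : mat (c • M) = c • mat M := by
  ext Y i
  simp [mat_apply, Finset.mul_sum, mul_assoc]

lemma bil_add (M N : Matrix (Fin n) (Fin n) ℝ) (Y Z : E n) :
    bil (M + N) Y Z = bil M Y Z + bil N Y Z := by
  simp [bil_apply, add_mul, Finset.sum_add_distrib]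

lemma bil_sub (M N : Matrix (Fin n) (Fin n) ℝ) (Y Z : E n) :
    bil (M - N) Y Z = bil M Y Z - bil N Y Z := by
  simp [bil_apply, sub_mul, Finset.sum_sub_distrib]

lemma bil_smul (c : ℝ) (M : Matrix (Fin n) (Fin n) ℝ) (Y Z : E n) :
    bil (c • M) Y Z = c * bil M Y Z := by
  simp [bil_apply, Finset.mul_sum, mul_assoc]

lemma bil_symm_of {M : Matrix (Fin n) (Fin n) ℝ} (h : ∀ i j, M i j = M j i) (Y Z : E n) :
    bil M Y Z = bil M Z Y := by
  rw [bil_apply, bil_apply, Finset.sum_comm]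
  refine Finset.sum_congr rfl fun i _ => Finset.sum_congr rfl fun j _ => ?_
  rw [h j i]; ring

/-- a continuous bilinear form is `bil` of its matrix. -/
lemma bil_of (B : E n →L[ℝ] E n →L[ℝ] ℝ) (Y Z : E n) :
    bil (Matrix.of fun i j => B (ee i) (ee j)) Y Z = B Y Z := by
  rw [bil_apply]
  conv_rhs => rw [eq_sum_single Y, eq_sum_single Z]
  simp only [map_sum, sum_apply, map_smul, smul_apply,
    smul_eq_mul, Finset.mul_sum, Matrix.of_apply]
  rw [Finset.sum_comm]
  exact Finset.sum_congr rfl fun i _ => Finset.sum_congr rfl fun j _ => by ring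

lemma bil_hessM (g : MetricField n) (f : E n → ℝ) (x Y Z : E n) :
    bil (hessM g f x) Y Z = hess g f x Y Z := bil_of _ _ _

lemma bil_ricM (g : MetricField n) (x Y Z : E n) :
    bil (ricM g x) Y Z = ∑ i, ∑ j, ricci g x i j * Y i * Z j := bil_apply _ _ _

/-- a rank one matrix of two differentials. -/
lemma bil_pderiv (c : ℝ) (u v : E n → ℝ) (x Y Z : E n) :
    bil (Matrix.of fun i j => c * pderiv i u x * pderiv j v x) Y Z =
      c * fderiv ℝ u x Y * fderiv ℝ v x Z := by
  rw [bil_apply, fderiv_eq_sum, fderiv_eq_sum, mul_assoc, Finset.sum_mul_sum, Finset.mul_sum]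
  refine Finset.sum_congr rfl fun i _ => ?_
  rw [Finset.mul_sum]
  exact Finset.sum_congr rfl fun j _ => by rw [Matrix.of_apply]; ring

lemma clm_eq_sum (α : E n →L[ℝ] ℝ) (Y : E n) : α Y = ∑ i, Y i * α (ee i) := by
  conv_lhs => rw [eq_sum_single Y]
  simp only [map_sum, map_smul, smul_eq_mul]

/-! ### traces -/

lemma trL_mat (M : Matrix (Fin n) (Fin n) ℝ) : trL (mat M) = ∑ i, M i i := by
  rw [trL_apply]
  exact Finset.sum_congr rfl fun i _ => mat_ee M i i

lemma trL_smulRight (α : E n →L[ℝ] ℝ) (v : E n) : trL (α.smulRight v) = α v := by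
  rw [trL_apply, clm_eq_sum α v]
  refine Finset.sum_congr rfl fun i _ => ?_
  simp only [ContinuousLinearMap.smulRight_apply, PiLp.smul_apply, smul_eq_mul]
  ring

lemma comp_smulRight (T : E n →L[ℝ] E n) (α : E n →L[ℝ] ℝ) (v : E n) :
    T.comp (α.smulRight v) = α.smulRight (T v) := by
  ext Y : 1
  simp

lemma smulRight_comp (T : E n →L[ℝ] E n) (α : E n →L[ℝ] ℝ) (v : E n) :
    (α.smulRight v).comp T = (α.comp T).smulRight v := by
  ext Y : 1
  simp

lemma trL_comp_smulRight (T : E n →L[ℝ] E n) (α : E n →L[ℝ] ℝ) (v : E n) :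
    trL (T.comp (α.smulRight v)) = α (T v) := by
  rw [comp_smulRight, trL_smulRight]

lemma trL_smulRight_comp (T : E n →L[ℝ] E n) (α : E n →L[ℝ] ℝ) (v : E n) :
    trL ((α.smulRight v).comp T) = α (T v) := by
  rw [smulRight_comp, trL_smulRight]; rfl

lemma trL_id : trL (ContinuousLinearMap.id ℝ (E n)) = n := by
  rw [trL_apply]
  simp

section Riem

variable {g T : MetricField n} {U : Set (E n)} {x : E n}

lemma mul_shp (hg : IsRiemannianOn g U) (hx : x ∈ U) (T : MetricField n) (Y : E n) :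
    mat (g x) (shp g T x Y) = mat (T x) Y := by
  rw [shp, ← mat_mul, ← Matrix.mul_assoc, Matrix.mul_nonsing_inv _ (det_pos hg hx).ne'.isUnit,
    Matrix.one_mul]

/-- `g(Z, g⁻¹ T Y) = T(Z, Y)`. -/
lemma bil_shp' (hg : IsRiemannianOn g U) (hx : x ∈ U) (T : MetricField n) (Y Z : E n) :
    bil (g x) Z (shp g T x Y) = bil (T x) Z Y := by
  rw [bil_eq_mat, mul_shp hg hx, ← bil_eq_mat]

/-- `g(g⁻¹ T Y, Z) = T(Z, Y)`. -/
lemma bil_shp (hg : IsRiemannianOn g U) (hx : x ∈ U) (T : MetricField n) (Y Z : E n) :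
    bil (g x) (shp g T x Y) Z = bil (T x) Z Y := by
  rw [bil_symm hg hx, bil_shp' hg hx]

lemma shp_eq_of_bil (hg : IsRiemannianOn g U) (hx : x ∈ U) {T : MetricField n}
    {A : E n →L[ℝ] E n} (h : ∀ Y Z, bil (g x) (A Y) Z = bil (T x) Z Y) : shp g T x = A := by
  ext Y : 1
  refine bil_injective hg hx fun Z => ?_
  rw [bil_shp hg hx, h]

lemma shp_add (G S T : MetricField n) (x : E n) :
    shp G (fun y => S y + T y) x = shp G S x + shp G T x := by
  rw [shp, shp, shp, Matrix.mul_add, mat_add]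

lemma shp_sub (G S T : MetricField n) (x : E n) :
    shp G (fun y => S y - T y) x = shp G S x - shp G T x := by
  rw [shp, shp, shp, Matrix.mul_sub, mat_sub]

lemma shp_smul (G T : MetricField n) (c : E n → ℝ) (x : E n) :
    shp G (fun y => c y • T y) x = c x • shp G T x := by
  rw [shp, shp, Matrix.mul_smul, mat_smul]

lemma shp_self (hg : IsRiemannianOn g U) (hx : x ∈ U) :
    shp g g x = ContinuousLinearMap.id ℝ (E n) :=
  shp_eq_of_bil hg hx fun Y Z => bil_symm hg hx Y Z

lemma traceK_eq (hg : IsRiemannianOn g U) (hx : x ∈ U) (T : MetricField n) :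
    traceK g T x = trL (shp g T x) := by
  rw [shp, trL_mat, traceK]
  simp only [Matrix.mul_apply]
  rw [Finset.sum_comm]
  refine Finset.sum_congr rfl fun i _ => Finset.sum_congr rfl fun j _ => ?_
  rw [inv_symm hg hx]; rfl

lemma normSqK_eq (hg : IsRiemannianOn g U) (hx : x ∈ U) {T : MetricField n}
    (hT : ∀ i j, T x i j = T x j i) :
    normSqK g T x = trL ((shp g T x).comp (shp g T x)) := by
  have h1 : (shp g T x).comp (shp g T x) = mat ((g x)⁻¹ * T x * ((g x)⁻¹ * T x)) := by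
    ext Y : 1
    rw [mat_mul]; rfl
  rw [h1, trL_mat, normSqK]
  simp only [Matrix.mul_apply, Finset.sum_mul, Finset.mul_sum]
  -- LHS ∑ i j a b, RHS ∑ a b' i j'
  rw [Finset.sum_comm]
  conv_lhs => enter [2, j]; rw [Finset.sum_comm]
  rw [Finset.sum_comm]
  refine Finset.sum_congr rfl fun a _ => ?_
  refine Finset.sum_congr rfl fun j _ => ?_
  rw [Finset.sum_comm]
  refine Finset.sum_congr rfl fun b _ => ?_
  refine Finset.sum_congr rfl fun i _ => ?_
  have e1 := inv_symm hg hx i a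
  simp only [inverseField] at e1 ⊢
  rw [e1, hT a b]
  ring

lemma scalarCurv_eq_traceK (g : MetricField n) (x : E n) :
    scalarCurv g x = traceK g (ricM g) x := rfl

lemma traceK_add (G S T : MetricField n) (x : E n) :
    traceK G (fun y => S y + T y) x = traceK G S x + traceK G T x := by
  simp [traceK, mul_add, Finset.sum_add_distrib]

lemma traceK_sub (G S T : MetricField n) (x : E n) :
    traceK G (fun y => S y - T y) x = traceK G S x - traceK G T x := by
  simp [traceK, mul_sub, Finset.sum_sub_distrib]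

/-- the trace of an endomorphism through the metric. -/
lemma trL_eq_sum_inv (hg : IsRiemannianOn g U) (hx : x ∈ U) (A : E n →L[ℝ] E n) :
    trL A = ∑ j, ∑ k, inverseField g x j k * bil (g x) (A (ee k)) (ee j) := by
  have h1 : shp g (fun _ => Matrix.of fun j k => bil (g x) (A (ee k)) (ee j)) x = A := by
    refine shp_eq_of_bil hg hx fun Y Z => ?_
    have := bil_of (((bil (g x)).flip).flip.comp A).flip Z Y
    simpa using this.symm
  conv_lhs => rw [← h1]
  rw [← traceK_eq hg hx]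
  rfl

/-- the Laplacian is the trace of the Hessian matrix. -/
lemma shp_hessM (hg : IsRiemannianOn g U) (hx : x ∈ U) {f : E n → ℝ} (hf : ContDiffAt ℝ 2 f x) :
    shp g (hessM g f) x = hessE g f x :=
  shp_eq_of_bil hg hx fun Y Z => by
    rw [bil_hessE hg hx hf, bil_hessM, hess_symm hg hx hf]

lemma lap_eq_traceK (hg : IsRiemannianOn g U) (hx : x ∈ U) {f : E n → ℝ}
    (hf : ContDiffAt ℝ 2 f x) : laplaceBeltrami g f x = traceK g (hessM g f) x := by
  rw [traceK_eq hg hx, shp_hessM hg hx hf, lap_eq_trL hg hx hf]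

lemma gDiv_eq_divg (g : MetricField n) (V : VectorField n) (x : E n) :
    gDiv g V x = divg g (fun y => WithLp.toLp 2 (V y)) x := by
  rw [gDiv, divg, one_div, div_eq_inv_mul]; rfl


lemma gradSq_eq_gam (g : MetricField n) (u : E n → ℝ) (x : E n) :
    gradSq g u x = gam g u u x := rfl

/-! ### smoothness -/

lemma contDiffAt_mat {k : WithTop ℕ∞} {M : MetricField n}
    (h : ∀ i j, ContDiffAt ℝ k (fun y => M y i j) x) : ContDiffAt ℝ k (fun y => mat (M y)) x :=
  ContDiffAt.sum fun i _ => ContDiffAt.sum fun j _ => (h i j).smul contDiffAt_const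

lemma contDiffAt_sum2 {ι κ F H : Type*} [Fintype ι] [Fintype κ]
    [NormedAddCommGroup H] [NormedSpace ℝ H] [NormedAddCommGroup F] [NormedSpace ℝ F]
    {k : WithTop ℕ∞} {f : ι → κ → H → ℝ} {x : H} (hf : ∀ i j, ContDiffAt ℝ k (f i j) x)
    (L : ι → κ → F) : ContDiffAt ℝ k (fun y => ∑ i, ∑ j, f i j y • L i j) x :=
  ContDiffAt.sum fun i _ => ContDiffAt.sum fun j _ => (hf i j).smul contDiffAt_const

lemma contDiffAt_bil {k : WithTop ℕ∞} {M : MetricField n}
    (h : ∀ i j, ContDiffAt ℝ k (fun y => M y i j) x) : ContDiffAt ℝ k (fun y => bil (M y)) x :=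
  contDiffAt_sum2 (F := E n →L[ℝ] E n →L[ℝ] ℝ) h _

lemma contDiffAt_bil_apply {k : WithTop ℕ∞} {M : MetricField n} {Y Z : E n → E n}
    (h : ∀ i j, ContDiffAt ℝ k (fun y => M y i j) x) (hY : ContDiffAt ℝ k Y x)
    (hZ : ContDiffAt ℝ k Z x) : ContDiffAt ℝ k (fun y => bil (M y) (Y y) (Z y)) x :=
  ((contDiffAt_bil h).clm_apply hY).clm_apply hZ

lemma contDiffAt_shp (hg : IsRiemannianOn g U) (hx : x ∈ U) {k : WithTop ℕ∞} (hk : k ≤ ∞)
    (h : ∀ i j, ContDiffAt ℝ k (fun y => T y i j) x) : ContDiffAt ℝ k (shp g T) x := by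
  refine contDiffAt_mat (M := fun y => (g y)⁻¹ * T y) fun i j => ?_
  simp only [Matrix.mul_apply]
  exact ContDiffAt.sum fun l _ => ((contDiffAt_inv hg hx i l).of_le hk).mul (h l j)

lemma contDiffAt_tv (hg : IsRiemannianOn g U) (hx : x ∈ U) {k : WithTop ℕ∞} (hk : k ≤ ∞)
    (h : ∀ i j, ContDiffAt ℝ k (fun y => T y i j) x) {W : E n → E n} (hW : ContDiffAt ℝ k W x) :
    ContDiffAt ℝ k (tv g T W) x :=
  (contDiffAt_shp hg hx hk h).clm_apply hW

lemma contDiffAt_traceK (hg : IsRiemannianOn g U) (hx : x ∈ U) {k : WithTop ℕ∞} (hk : k ≤ ∞)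
    (h : ∀ i j, ContDiffAt ℝ k (fun y => T y i j) x) : ContDiffAt ℝ k (traceK g T) x :=
  ContDiffAt.sum fun i _ => ContDiffAt.sum fun j _ =>
    ((contDiffAt_inv hg hx i j).of_le hk).mul (h i j)

lemma contDiffAt_hessM (hg : IsRiemannianOn g U) (hx : x ∈ U) {f : E n → ℝ}
    (hf : ContDiffAt ℝ ∞ f x) (i j : Fin n) : ContDiffAt ℝ ∞ (fun y => hessM g f y i j) x := by
  have h1 : ContDiffAt ℝ ∞ (fderiv ℝ f) x := hf.fderiv_right (by simp)
  have h2 : ContDiffAt ℝ ∞ (fderiv ℝ (fderiv ℝ f)) x := h1.fderiv_right (by simp)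
  simp only [hessM, Matrix.of_apply, hess_apply]
  exact ((h2.clm_apply contDiffAt_const).clm_apply contDiffAt_const).sub
    (h1.clm_apply (((contDiffAt_Gam hg hx).clm_apply contDiffAt_const).clm_apply contDiffAt_const))

lemma SymT.contDiffAt {K : MetricField n} (hK : SymT K U) (hU : IsOpen U) (hx : x ∈ U)
    (i j : Fin n) : ContDiffAt ℝ ∞ (fun y => K y i j) x :=
  (hK.smooth i j).contDiffAt (hU.mem_nhds hx)

lemma SymT.bil_symm {K : MetricField n} (hK : SymT K U) (hx : x ∈ U) (Y Z : E n) :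
    bil (K x) Y Z = bil (K x) Z Y := bil_symm_of (hK.symm x hx) Y Z

end Riem

end Crest.Agent.N346.Id

end
end

-- ▼ part N346/Id/Ric
section

/-!
Row 346, Part 1 (helper90): covariant derivative rules, the Ricci identity in divergence form,
and the divergence of `K(W, ·)^♯`.
-/

set_option autoImplicit false

open scoped ContDiff Topology
open Filter Set
open Crest.GeometryTopology.CoordMetric Crest.MathPhysics.ExteriorData
open Crest.Agent.R202.Tens Crest.Agent.R247.Bo84

noncomputable section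

namespace Crest.Agent.N346.Id

variable {n : ℕ} {g : MetricField n} {U : Set (E n)} {x : E n} {V W Y Z : E n → E n}



lemma cov_sub (hV : DifferentiableAt ℝ V x) (hW : DifferentiableAt ℝ W x) :
    cov g (fun y => V y - W y) x = cov g V x - cov g W x := by
  ext1 X
  rw [cov_apply, fderiv_fun_sub hV hW]
  simp only [sub_apply, cov_apply, map_sub]
  abel

lemma cov_smul {h : E n → ℝ} (hh : DifferentiableAt ℝ h x) (hV : DifferentiableAt ℝ V x) :
    cov g (fun y => h y • V y) x = h x • cov g V x + (fderiv ℝ h x).smulRight (V x) := by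
  ext1 X
  rw [cov_apply, fderiv_fun_smul hh hV]
  simp only [add_apply, smul_apply, ContinuousLinearMap.smulRight_apply, cov_apply, map_smul,
    smul_add]
  abel

lemma cov_const (v : E n) (X : E n) : cov g (fun _ => v) x X = Gam g x X v := by
  rw [cov_apply]
  simp

lemma divg_sub (hg : IsRiemannianOn g U) (hx : x ∈ U)
    (hV : DifferentiableAt ℝ V x) (hW : DifferentiableAt ℝ W x) :
    divg g (fun y => V y - W y) x = divg g V x - divg g W x := by
  rw [divg_eq_trL hg hx (hV.fun_sub hW), divg_eq_trL hg hx hV, divg_eq_trL hg hx hW, ← map_sub,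
    cov_sub hV hW]

lemma divg_sum {ι : Type*} (s : Finset ι) (hg : IsRiemannianOn g U) (hx : x ∈ U)
    {F : ι → E n → E n} (hF : ∀ i, DifferentiableAt ℝ (F i) x) :
    divg g (fun y => ∑ i ∈ s, F i y) x = ∑ i ∈ s, divg g (F i) x := by
  classical
  induction s using Finset.induction_on with
  | empty => simp [divg, pderiv]
  | insert a s ha ih =>
    simp only [Finset.sum_insert ha]
    rw [divg_add hg hx (hF a) (DifferentiableAt.fun_sum fun i _ => hF i), ih]

/-- `X(df(Z)) = Hess f(X, Z) + df(∇_X Z)`. -/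
lemma fderiv_fderiv_apply {f : E n → ℝ} (hf : ContDiffAt ℝ 2 f x) (hZ : DifferentiableAt ℝ Z x)
    (g : MetricField n) (X : E n) :
    fderiv ℝ (fun y => fderiv ℝ f y (Z y)) x X =
      hess g f x X (Z x) + fderiv ℝ f x (cov g Z x X) := by
  have hdf : DifferentiableAt ℝ (fderiv ℝ f) x :=
    (hf.fderiv_right (m := 1) (by norm_num)).differentiableAt (by norm_num)
  rw [fderiv_clm_apply hdf hZ, hess_apply, cov_apply, map_add]
  simp only [add_apply, ContinuousLinearMap.comp_apply, ContinuousLinearMap.flip_apply]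
  ring

/-- **Ricci identity in divergence form**:
`div (∇_Y W) = tr (∇W ∘ ∇Y) + Y (div W) + Ric (W, Y)`. -/
theorem divg_cov (hg : IsRiemannianOn g U) (hx : x ∈ U) (hW : ContDiffAt ℝ 2 W x)
    (hY : DifferentiableAt ℝ Y x) :
    divg g (fun y => cov g W y (Y y)) x =
      trL ((cov g W x).comp (cov g Y x)) + fderiv ℝ (divg g W) x (Y x) +
        bil (ricM g x) (W x) (Y x) := by
  have hH1 : ContDiffAt ℝ 1 (cov g W) x :=
    contDiffAt_cov hg hx (m := 1) hW (by norm_num) (by simp)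
  have hHd : DifferentiableAt ℝ (cov g W) x := hH1.differentiableAt (by norm_num)
  have hdW : DifferentiableAt ℝ (fun y => cov g W y (Y y)) x := hHd.clm_apply hY
  set v := Y x with hv
  set T := cov g W x with hT
  set S := cov g Y x with hS
  have hcovW : ∀ X, cov g (fun y => cov g W y (Y y)) x X =
      fderiv ℝ (cov g W) x X v + T (fderiv ℝ Y x X) + Gam g x X (T v) := by
    intro X
    rw [cov_apply, fderiv_clm_apply hHd hY]
    simp only [add_apply, ContinuousLinearMap.comp_apply, ContinuousLinearMap.flip_apply]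
    abel
  have hric : ∀ X, fderiv ℝ (cov g W) x X v + T (fderiv ℝ Y x X) + Gam g x X (T v) =
      curv (Gam g) x X v (W x) + (T.comp S) X + fderiv ℝ (cov g W) x v X +
        ((Gam g x v).comp T) X - (T.comp (Gam g x v)) X := by
    intro X
    have h1 := ricci_identity hg hx hW X v
    rw [← h1]
    have h2 : S X = fderiv ℝ Y x X + Gam g x X v := rfl
    simp only [ContinuousLinearMap.comp_apply]
    have h3 : T (S X) = T (fderiv ℝ Y x X) + T (Gam g x X v) := by
      rw [h2, map_add]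
    rw [h3]
    abel
  have hdiv : divg g W =ᶠ[𝓝 x] fun y => trL (cov g W y) := by
    filter_upwards [hg.isOpen.mem_nhds hx, hW.eventually (by norm_num)] with y hy h2
      using divg_eq_trL hg hy (h2.differentiableAt (by norm_num))
  have hfl : fderiv ℝ (divg g W) x v = trL (fderiv ℝ (cov g W) x v) := by
    rw [hdiv.fderiv_eq]
    have h4 := (trL (n := n)).hasFDerivAt.comp x hHd.hasFDerivAt
    have h5 : fderiv ℝ (fun y => trL (cov g W y)) x =
        (trL (n := n)).comp (fderiv ℝ (cov g W) x) := h4.fderiv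
    rw [h5]
    rfl
  rw [divg_eq_trL hg hx hdW, trL_apply]
  simp only [hcovW, hric]
  rw [hfl, bil_ricM, ricci_form hg hx v (W x)]
  have h6 : trL ((Gam g x v).comp T) = trL (T.comp (Gam g x v)) := trL_comp_comm _ _
  rw [trL_apply, trL_apply] at h6
  rw [trL_apply, trL_apply]
  simp only [PiLp.add_apply, PiLp.sub_apply]
  rw [Finset.sum_sub_distrib, Finset.sum_add_distrib, Finset.sum_add_distrib,
    Finset.sum_add_distrib, h6]
  ring

/-- the covariant derivative of a two-tensor, evaluated on vectors. -/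
lemma covK_apply {K : MetricField n} (hK : ∀ i j, DifferentiableAt ℝ (fun y => K y i j) x)
    (k j : Fin n) (w : E n) :
    fderiv ℝ (Gf K) x (ee k) w (ee j) - bil (K x) (Gam g x (ee k) w) (ee j)
      - bil (K x) w (Gam g x (ee k) (ee j)) = ∑ i, covDerivK g K x k i j * w i := by
  have e1 : fderiv ℝ (Gf K) x (ee k) w (ee j) = ∑ i, pderiv k (fun y => K y i j) x * w i := by
    rw [fderiv_Gf hK, Finset.sum_eq_single k]
    · refine Finset.sum_congr rfl fun i _ => ?_
      rw [Finset.sum_eq_single j]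
      · simp
      · intro b _ hb
        simp [hb]
      · simp
    · intro b _ hb
      simp [hb]
    · simp
  have hG : ∀ (w : E n) (l : Fin n), Gam g x (ee k) w l = ∑ i, christoffel g x l k i * w i := by
    intro w l
    rw [Gam_apply, Finset.sum_eq_single k]
    · simp
    · intro b _ hb
      simp [hb]
    · simp
  have e2 : bil (K x) (Gam g x (ee k) w) (ee j) =
      ∑ i, (∑ l, christoffel g x l k i * K x l j) * w i := by
    rw [bil_eq_mat]
    simp only [mat_ee, hG, Finset.sum_mul]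
    rw [Finset.sum_comm]
    exact Finset.sum_congr rfl fun i _ => Finset.sum_congr rfl fun l _ => by ring
  have e3 : bil (K x) w (Gam g x (ee k) (ee j)) =
      ∑ i, (∑ l, christoffel g x l k j * K x i l) * w i := by
    rw [bil_eq_mat]
    refine Finset.sum_congr rfl fun i _ => ?_
    rw [mat_apply, mul_comm]
    congr 1
    refine Finset.sum_congr rfl fun l _ => ?_
    rw [hG, Finset.sum_eq_single j]
    · simp [mul_comm]
    · intro b _ hb
      simp [hb]
    · simp
  rw [e1, e2, e3, ← Finset.sum_sub_distrib, ← Finset.sum_sub_distrib]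
  refine Finset.sum_congr rfl fun i _ => ?_
  rw [covDerivK]
  ring

/-- `div (K(W, ·)^♯) = J(W) + W(tr K) + tr (K^♯ ∘ ∇W)`. -/
theorem divg_tv (hg : IsRiemannianOn g U) (hx : x ∈ U) {K : MetricField n} (hK : SymT K U)
    (hW : DifferentiableAt ℝ W x) :
    divg g (tv g K W) x = Jw g K x (W x) + fderiv ℝ (traceK g K) x (W x) +
      trL ((shp g K x).comp (cov g W x)) := by
  have hKc := hK.contDiffAt hg.isOpen hx
  have hKd : ∀ i j, DifferentiableAt ℝ (fun y => K y i j) x := fun i j =>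
    (hKc i j).differentiableAt (by simp)
  have htv : DifferentiableAt ℝ (tv g K W) x :=
    ((contDiffAt_shp hg hx le_rfl hKc).differentiableAt (by simp)).clm_apply hW
  have hGK : DifferentiableAt ℝ (Gf K) x := (hasFDerivAt_Gf hKd).differentiableAt
  have key : ∀ k j, bil (g x) (cov g (tv g K W) x (ee k)) (ee j) =
      ∑ i, covDerivK g K x k i j * W x i +
        bil (g x) (((shp g K x).comp (cov g W x)) (ee k)) (ee j) := by
    intro k j
    have h1 := fderiv_bil hg hx htv (differentiableAt_const (ee j)) (ee k)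
    have h2 : (fun y => bil (g y) (tv g K W y) (ee j)) =ᶠ[𝓝 x]
        fun y => Gf K y (W y) (ee j) := by
      filter_upwards [hg.isOpen.mem_nhds hx] with y hy
      rw [tv, bil_shp hg hy, hK.bil_symm hy]; rfl
    have h3 := fderiv_apply2 (G := Gf K) (Φ := fun z => z) (u := W) (v := fun _ => ee j)
        (y := x) hGK differentiableAt_id hW (differentiableAt_const _) (ee k)
    simp only [fderiv_fun_id, ContinuousLinearMap.coe_id', id_eq, fderiv_fun_const, Pi.zero_apply,
      zero_apply, map_zero, add_zero] at h3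
    rw [h2.fderiv_eq, h3, cov_const, tv, bil_shp hg hx, hK.bil_symm hx] at h1
    rw [← covK_apply hKd, ContinuousLinearMap.comp_apply, bil_shp hg hx, hK.bil_symm hx (ee j),
      cov_apply g W, map_add, add_apply]
    have e : Gf K x (fderiv ℝ W x (ee k)) (ee j) = bil (K x) (fderiv ℝ W x (ee k)) (ee j) := rfl
    linarith
  rw [divg_eq_trL hg hx htv, trL_eq_sum_inv hg hx, trL_eq_sum_inv hg hx ((shp g K x).comp _)]
  simp only [key, mul_add, Finset.sum_add_distrib]
  congr 1
  rw [Jw, fderiv_eq_sum, ← Finset.sum_add_distrib]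
  simp only [Finset.mul_sum]
  have h4 : ∀ j : Fin n, ∑ k, ∑ i, inverseField g x j k * (covDerivK g K x k i j * W x i) =
      ∑ i, ∑ k, inverseField g x j k * (covDerivK g K x k i j * W x i) :=
    fun j => Finset.sum_comm
  simp only [h4]
  rw [Finset.sum_comm]
  refine Finset.sum_congr rfl fun i _ => ?_
  rw [momentumDensity, sub_mul, Finset.sum_mul]
  simp only [Finset.sum_mul, mul_assoc]
  ring

lemma Jw_eq (hg : IsRiemannianOn g U) (hx : x ∈ U) {K : MetricField n} (hK : SymT K U)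
    (hW : DifferentiableAt ℝ W x) :
    Jw g K x (W x) = divg g (tv g K W) x - fderiv ℝ (traceK g K) x (W x) -
      trL ((shp g K x).comp (cov g W x)) := by
  rw [divg_tv hg hx hK hW]; ring

end Crest.Agent.N346.Id

end
end

-- ▼ part N346/Id/Pal
section

/-!
Row 346, Part 1 (helper90): comparison of two Riemannian metrics `g`, `g₂` on the same open set.
`C = Γ(g₂) - Γ(g)`, `l` is a function with `dl = tr C` (for example `log (√det g₂ / √det g)`).
Main results: `divg_two`, `hess_two`, `ricci_two` (Palatini), `scalar_two` (identity I1).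
-/

set_option autoImplicit false

open scoped ContDiff Topology
open Filter Set
open Crest.GeometryTopology.CoordMetric Crest.MathPhysics.ExteriorData
open Crest.Agent.R202.Tens Crest.Agent.R247.Bo84

noncomputable section

namespace Crest.Agent.N346.Id

variable {n : ℕ} {g g₂ : MetricField n} {U : Set (E n)} {x : E n} {W Y : E n → E n}

/-- difference of the Levi-Civita connections, `C = Γ(g₂) - Γ(g)`. -/
def Cd (g g₂ : MetricField n) (x : E n) : E n →L[ℝ] E n →L[ℝ] E n := Gam g₂ x - Gam g x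

/-- `log √det g`. -/
def lvol (g : MetricField n) (x : E n) : ℝ := Real.log (volDensity g x)

/-- the gradient of the `i`-th coordinate function, `ξᵢ = G^{ij} eⱼ`. -/
def xi (G : MetricField n) (i : Fin n) : E n → E n := grad G fun z => z i

lemma Cd_apply (g g₂ : MetricField n) (x A B : E n) :
    Cd g g₂ x A B = Gam g₂ x A B - Gam g x A B := rfl

lemma Cd_symm (hg : IsRiemannianOn g U) (hg₂ : IsRiemannianOn g₂ U) (hx : x ∈ U) (A B : E n) :
    Cd g g₂ x A B = Cd g g₂ x B A := by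
  rw [Cd_apply, Cd_apply, Gam_symm hg hx, Gam_symm hg₂ hx]

lemma contDiffAt_Cd (hg : IsRiemannianOn g U) (hg₂ : IsRiemannianOn g₂ U) (hx : x ∈ U) :
    ContDiffAt ℝ ∞ (Cd g g₂) x := (contDiffAt_Gam hg₂ hx).sub (contDiffAt_Gam hg hx)

lemma volDensity_pos (hg : IsRiemannianOn g U) (hx : x ∈ U) : 0 < volDensity g x :=
  Real.sqrt_pos.2 (det_pos hg hx)

lemma contDiffAt_volDensity (hg : IsRiemannianOn g U) (hx : x ∈ U) :
    ContDiffAt ℝ ∞ (volDensity g) x := contDiffAt_sqrt_det hg hx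

lemma contDiffAt_lvol (hg : IsRiemannianOn g U) (hx : x ∈ U) : ContDiffAt ℝ ∞ (lvol g) x :=
  (contDiffAt_volDensity hg hx).log (volDensity_pos hg hx).ne'

lemma pderiv_lvol (hg : IsRiemannianOn g U) (hx : x ∈ U) (i : Fin n) :
    pderiv i (lvol g) x = ∑ k, christoffel g x k k i := by
  have hd : DifferentiableAt ℝ (volDensity g) x :=
    (contDiffAt_volDensity hg hx).differentiableAt (by simp)
  have hp := volDensity_pos hg hx
  have h1 : fderiv ℝ (lvol g) x = (volDensity g x)⁻¹ • fderiv ℝ (volDensity g) x :=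
    (hd.hasFDerivAt.log hp.ne').fderiv
  have h2 : pderiv i (volDensity g) x = volDensity g x * ∑ k, christoffel g x k k i :=
    pderiv_sqrt_det hg hx i
  rw [pderiv, h1, smul_apply, smul_eq_mul]
  rw [pderiv] at h2
  rw [h2]
  field_simp

lemma trL_Gam (hg : IsRiemannianOn g U) (hx : x ∈ U) (Z : E n) :
    trL (Gam g x Z) = fderiv ℝ (lvol g) x Z := by
  rw [trL_apply, fderiv_eq_sum]
  simp only [pderiv_lvol hg hx, Finset.mul_sum]
  rw [Finset.sum_comm]
  refine Finset.sum_congr rfl fun k _ => ?_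
  rw [Gam_symm hg hx, Gam_apply, Finset.sum_eq_single k]
  · exact Finset.sum_congr rfl fun j _ => by simp [mul_comm]
  · intro b _ hb
    simp [hb]
  · simp

lemma trL_Cd (hg : IsRiemannianOn g U) (hg₂ : IsRiemannianOn g₂ U) (hx : x ∈ U) (Z : E n) :
    trL (Cd g g₂ x Z) = fderiv ℝ (fun y => lvol g₂ y - lvol g y) x Z := by
  rw [fderiv_fun_sub ((contDiffAt_lvol hg₂ hx).differentiableAt (by simp))
    ((contDiffAt_lvol hg hx).differentiableAt (by simp)), sub_apply, ← trL_Gam hg hx,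
    ← trL_Gam hg₂ hx, ← map_sub]
  rfl

/-- the Ricci tensor is symmetric. -/
lemma ricci_symm (hg : IsRiemannianOn g U) (hx : x ∈ U) (i j : Fin n) :
    ricci g x i j = ricci g x j i := by
  have hl := contDiffAt_lvol hg hx
  have h1 : ∀ i j : Fin n, pderiv j (fun y => ∑ k, christoffel g y k k i) x =
      fderiv ℝ (fderiv ℝ (lvol g)) x (ee j) (ee i) := by
    intro i j
    have h2 : (fun y => ∑ k, christoffel g y k k i) =ᶠ[𝓝 x]
        fun y => fderiv ℝ (lvol g) y (ee i) := by
      filter_upwards [hg.isOpen.mem_nhds hx] with y hy using (pderiv_lvol hg hy i).symm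
    have hdf : DifferentiableAt ℝ (fderiv ℝ (lvol g)) x :=
      (hl.fderiv_right (m := 1) (by norm_cast)).differentiableAt (by norm_num)
    rw [pderiv, h2.fderiv_eq, fderiv_clm_apply hdf (differentiableAt_const _)]
    simp
  unfold ricci
  rw [h1, h1, fderiv2_symm (hl.of_le (by norm_cast)) (ee j) (ee i)]
  have h2 : ∀ k, pderiv k (fun y => christoffel g y k j i) x
      = pderiv k (fun y => christoffel g y k i j) x := fun k =>
    pderiv_christoffel_symm hg hx k k j i
  have h3 : ∀ a, christoffel g x a j i = christoffel g x a i j := fun a =>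
    christoffel_symm hg hx a j i
  have h4 : ∑ k, ∑ l, christoffel g x k j l * christoffel g x l k i =
      ∑ k, ∑ l, christoffel g x k i l * christoffel g x l k j := by
    rw [Finset.sum_comm]
    refine Finset.sum_congr rfl fun k _ => Finset.sum_congr rfl fun l _ => ?_
    rw [christoffel_symm hg hx l j k, christoffel_symm hg hx k l i, mul_comm]
  simp only [h2, h3, h4]

lemma ricM_symm (hg : IsRiemannianOn g U) (hx : x ∈ U) (A B : E n) :
    bil (ricM g x) A B = bil (ricM g x) B A :=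
  bil_symm_of (fun i j => ricci_symm hg hx i j) A B

lemma cov_two (hg : IsRiemannianOn g U) (hg₂ : IsRiemannianOn g₂ U) (hx : x ∈ U)
    (Y : E n → E n) : cov g₂ Y x = cov g Y x + Cd g g₂ x (Y x) := by
  ext1 X
  rw [add_apply, Cd_symm hg hg₂ hx, cov_apply, cov_apply, Cd_apply]
  abel

lemma hess_two (g g₂ : MetricField n) (ψ : E n → ℝ) (x A B : E n) :
    hess g₂ ψ x A B = hess g ψ x A B - fderiv ℝ ψ x (Cd g g₂ x A B) := by
  rw [hess_apply, hess_apply, Cd_apply, map_sub]
  ring

lemma divg_two (hg : IsRiemannianOn g U) (hg₂ : IsRiemannianOn g₂ U) (hx : x ∈ U)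
    {l : E n → ℝ} (hl : ∀ Z, trL (Cd g g₂ x Z) = fderiv ℝ l x Z)
    (hY : DifferentiableAt ℝ Y x) : divg g₂ Y x = divg g Y x + fderiv ℝ l x (Y x) := by
  rw [divg_eq_trL hg₂ hx hY, divg_eq_trL hg hx hY, cov_two hg hg₂ hx, map_add, hl]

/-- **Palatini**: difference of the Ricci tensors along vector fields. -/
theorem ricci_two (hg : IsRiemannianOn g U) (hg₂ : IsRiemannianOn g₂ U) (hx : x ∈ U)
    {l : E n → ℝ} (hl2 : ContDiffAt ℝ 2 l x)
    (hl : ∀ y ∈ U, ∀ Z, trL (Cd g g₂ y Z) = fderiv ℝ l y Z)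
    (hW : ContDiffAt ℝ 2 W x) (hY : DifferentiableAt ℝ Y x) :
    bil (ricM g₂ x) (W x) (Y x) = bil (ricM g x) (W x) (Y x)
      + divg g (fun y => Cd g g₂ y (W y) (Y y)) x + fderiv ℝ l x (Cd g g₂ x (W x) (Y x))
      - hess g l x (Y x) (W x) - trL ((cov g W x).comp (Cd g g₂ x (Y x)))
      - trL ((Cd g g₂ x (W x)).comp (cov g Y x))
      - trL ((Cd g g₂ x (W x)).comp (Cd g g₂ x (Y x))) := by
  have hWd : DifferentiableAt ℝ W x := hW.differentiableAt (by norm_num)
  have hC : DifferentiableAt ℝ (Cd g g₂) x := (contDiffAt_Cd hg hg₂ hx).differentiableAt (by simp)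
  have hcov : ∀ {G : MetricField n}, IsRiemannianOn G U →
      DifferentiableAt ℝ (fun y => cov G W y (Y y)) x := fun hG =>
    ((contDiffAt_cov hG hx (m := 1) hW (by norm_num) (by simp)).differentiableAt
      (by norm_num)).clm_apply hY
  have hCWY : DifferentiableAt ℝ (fun y => Cd g g₂ y (W y) (Y y)) x :=
    (hC.clm_apply hWd).clm_apply hY
  have h1 := divg_cov hg hx hW hY
  have h2 := divg_cov hg₂ hx hW hY
  have e1 : (fun y => cov g₂ W y (Y y)) =ᶠ[𝓝 x]
      fun y => cov g W y (Y y) + Cd g g₂ y (W y) (Y y) := by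
    filter_upwards [hg.isOpen.mem_nhds hx] with y hy
    rw [cov_two hg hg₂ hy, add_apply]
  rw [divg_two hg hg₂ hx (hl x hx) (hcov hg₂), divg_congr e1,
    divg_add hg hx (hcov hg) hCWY] at h2
  have e2 : divg g₂ W =ᶠ[𝓝 x] fun y => divg g W y + fderiv ℝ l y (W y) := by
    filter_upwards [hg.isOpen.mem_nhds hx, hW.eventually (by norm_num)] with y hy h3
      using divg_two hg hg₂ hy (hl y hy) (h3.differentiableAt (by norm_num))
  have hdiv : DifferentiableAt ℝ (divg g W) x :=
    (contDiffAt_divg hg hx (m := 1) hW (by norm_num) (by norm_cast)).differentiableAt (by norm_num)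
  have hdl : DifferentiableAt ℝ (fun y => fderiv ℝ l y (W y)) x :=
    ((hl2.fderiv_right (m := 1) (by norm_num)).differentiableAt (by norm_num)).clm_apply hWd
  rw [e2.fderiv_eq, fderiv_fun_add hdiv hdl, add_apply, fderiv_fderiv_apply hl2 hWd g,
    cov_two hg hg₂ hx W, cov_two hg hg₂ hx Y] at h2
  simp only [ContinuousLinearMap.comp_add, ContinuousLinearMap.add_comp, map_add, add_apply] at h2
  linarith

/-- the same, with the connection of `g₂` on the right-hand side. -/
theorem ricci_two' (hg : IsRiemannianOn g U) (hg₂ : IsRiemannianOn g₂ U) (hx : x ∈ U)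
    {l : E n → ℝ} (hl2 : ContDiffAt ℝ 2 l x)
    (hl : ∀ y ∈ U, ∀ Z, trL (Cd g g₂ y Z) = fderiv ℝ l y Z)
    (hW : ContDiffAt ℝ 2 W x) (hY : DifferentiableAt ℝ Y x) :
    bil (ricM g₂ x) (W x) (Y x) = bil (ricM g x) (W x) (Y x)
      + divg g₂ (fun y => Cd g g₂ y (W y) (Y y)) x - fderiv ℝ l x (Cd g g₂ x (W x) (Y x))
      - hess g₂ l x (Y x) (W x) - trL ((cov g₂ W x).comp (Cd g g₂ x (Y x)))
      - trL ((Cd g g₂ x (W x)).comp (cov g₂ Y x))
      + trL ((Cd g g₂ x (W x)).comp (Cd g g₂ x (Y x))) := by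
  have hWd : DifferentiableAt ℝ W x := hW.differentiableAt (by norm_num)
  have hC : DifferentiableAt ℝ (Cd g g₂) x := (contDiffAt_Cd hg hg₂ hx).differentiableAt (by simp)
  have hCWY : DifferentiableAt ℝ (fun y => Cd g g₂ y (W y) (Y y)) x :=
    (hC.clm_apply hWd).clm_apply hY
  rw [ricci_two hg hg₂ hx hl2 hl hW hY, divg_two hg hg₂ hx (hl x hx) hCWY, hess_two g g₂,
    cov_two hg hg₂ hx W, cov_two hg hg₂ hx Y, Cd_symm hg hg₂ hx (Y x) (W x)]
  simp only [ContinuousLinearMap.comp_add, ContinuousLinearMap.add_comp, map_add]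
  ring

/-! ### the dual coordinate frame -/

lemma fderiv_coord (i : Fin n) (x : E n) :
    fderiv ℝ (fun z : E n => z i) x = (EuclideanSpace.proj i : E n →L[ℝ] ℝ) :=
  (EuclideanSpace.proj i : E n →L[ℝ] ℝ).fderiv

lemma contDiff_coord (i : Fin n) {k : WithTop ℕ∞} : ContDiff ℝ k (fun z : E n => z i) :=
  (EuclideanSpace.proj i : E n →L[ℝ] ℝ).contDiff

lemma bil_xi (hg : IsRiemannianOn g U) (hx : x ∈ U) (i : Fin n) (Z : E n) :
    bil (g x) (xi g i x) Z = Z i := by
  rw [xi, bil_grad hg hx, fderiv_coord]; rfl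

lemma xi_apply (g : MetricField n) (i j : Fin n) (x : E n) :
    xi g i x j = inverseField g x j i := by
  rw [xi, grad_apply, Finset.sum_eq_single i]
  · simp [pderiv, fderiv_coord]
  · intro b _ hb
    simp [pderiv, fderiv_coord, hb.symm]
  · simp

lemma contDiffAt_xi (hg : IsRiemannianOn g U) (hx : x ∈ U) (i : Fin n) :
    ContDiffAt ℝ ∞ (xi g i) x :=
  contDiffAt_grad hg hx (k := ∞) (contDiff_coord i).contDiffAt (by simp) le_rfl

lemma sum_xi (hg : IsRiemannianOn g U) (hx : x ∈ U) (A : E n) :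
    ∑ i, bil (g x) A (ee i) • xi g i x = A := by
  refine bil_injective hg hx fun Z => ?_
  rw [map_sum, sum_apply, clm_eq_sum (bil (g x) A) Z]
  refine Finset.sum_congr rfl fun i _ => ?_
  rw [map_smul, smul_apply, bil_xi hg hx, smul_eq_mul, mul_comm]

/-- contraction of two covectors by `g⁻¹`, the first one given by a vector. -/
lemma sum_xi_clm (hg : IsRiemannianOn g U) (hx : x ∈ U) (A : E n) (β : E n →L[ℝ] ℝ) :
    ∑ i, bil (g x) A (ee i) * β (xi g i x) = β A := by
  conv_rhs => rw [← sum_xi hg hx A]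
  simp only [map_sum, map_smul, smul_eq_mul]

lemma traceK_eq_sum_xi (hg : IsRiemannianOn g U) (hx : x ∈ U) (T : MetricField n) :
    traceK g T x = ∑ i, bil (T x) (ee i) (xi g i x) := by
  refine Finset.sum_congr rfl fun i _ => ?_
  rw [clm_eq_sum (bil (T x) (ee i))]
  refine Finset.sum_congr rfl fun j _ => ?_
  rw [bil_ee, xi_apply, inv_symm hg hx]

lemma cov_xi (hg : IsRiemannianOn g U) (hx : x ∈ U) (i : Fin n) (X : E n) :
    cov g (xi g i) x X = -∑ j, Gam g x X (ee j) i • xi g j x := by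
  rw [← sum_xi hg hx (cov g (xi g i) x X), ← Finset.sum_neg_distrib]
  refine Finset.sum_congr rfl fun j _ => ?_
  rw [← neg_smul]
  congr 1
  have h1 := bil_hessE hg hx (f := fun z : E n => z i) (contDiff_coord i).contDiffAt X (ee j)
  have h2 : fderiv ℝ (fun z : E n => z i) = fun _ => (EuclideanSpace.proj i : E n →L[ℝ] ℝ) := by
    ext1 y; exact fderiv_coord i y
  rw [hess_apply, h2] at h1
  change bil (g x) (hessE g (fun z : E n => z i) x X) (ee j) = _
  simpa using h1

/-- **Identity I1**: the scalar curvature of `g₂` in terms of `g` and `C`. -/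
theorem scalar_two (hg : IsRiemannianOn g U) (hg₂ : IsRiemannianOn g₂ U) (hx : x ∈ U)
    {l : E n → ℝ} (hl2 : ContDiffAt ℝ 2 l x)
    (hl : ∀ y ∈ U, ∀ Z, trL (Cd g g₂ y Z) = fderiv ℝ l y Z) :
    scalarCurv g₂ x = traceK g₂ (ricM g) x
      + divg g₂ (fun y => ∑ i, Cd g g₂ y (ee i) (xi g₂ i y)) x
      - fderiv ℝ l x (∑ i, Cd g g₂ x (ee i) (xi g₂ i x)) - laplaceBeltrami g₂ l x
      + ∑ i, trL ((Cd g g₂ x (ee i)).comp (Cd g g₂ x (xi g₂ i x))) := by
  have hξ : ∀ i, DifferentiableAt ℝ (xi g₂ i) x := fun i =>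
    (contDiffAt_xi hg₂ hx i).differentiableAt (by simp)
  have hC : DifferentiableAt ℝ (Cd g g₂) x := (contDiffAt_Cd hg hg₂ hx).differentiableAt (by simp)
  have h1 := fun i => ricci_two' hg hg₂ hx hl2 hl (W := fun _ => ee i) (Y := xi g₂ i)
    contDiffAt_const (hξ i)
  have key : ∑ i, (trL ((cov g₂ (fun _ => ee i) x).comp (Cd g g₂ x (xi g₂ i x)))
      + trL ((Cd g g₂ x (ee i)).comp (cov g₂ (xi g₂ i) x))) = 0 := by
    have e1 : ∀ i, trL ((cov g₂ (fun _ => ee i) x).comp (Cd g g₂ x (xi g₂ i x))) =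
        ∑ k, Cd g g₂ x (Gam g₂ x (ee k) (ee i)) (xi g₂ i x) k := by
      intro i
      rw [trL_comp_comm, trL_apply]
      refine Finset.sum_congr rfl fun k _ => ?_
      rw [ContinuousLinearMap.comp_apply, cov_const, Cd_symm hg hg₂ hx]
    have e2 : ∀ i, trL ((Cd g g₂ x (ee i)).comp (cov g₂ (xi g₂ i) x)) =
        -∑ k, ∑ j, Gam g₂ x (ee k) (ee j) i * Cd g g₂ x (ee i) (xi g₂ j x) k := by
      intro i
      rw [trL_apply, ← Finset.sum_neg_distrib]
      refine Finset.sum_congr rfl fun k _ => ?_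
      rw [ContinuousLinearMap.comp_apply, cov_xi hg₂ hx, map_neg, map_sum, PiLp.neg_apply,
        WithLp.ofLp_sum, Finset.sum_apply]
      simp only [map_smul, PiLp.smul_apply, smul_eq_mul]
    have e3 : ∀ k j, Cd g g₂ x (Gam g₂ x (ee k) (ee j)) (xi g₂ j x) k =
        ∑ i, Gam g₂ x (ee k) (ee j) i * Cd g g₂ x (ee i) (xi g₂ j x) k := by
      intro k j
      conv_lhs => rw [eq_sum_single (Gam g₂ x (ee k) (ee j))]
      rw [map_sum, sum_apply, WithLp.ofLp_sum, Finset.sum_apply]
      simp only [map_smul, smul_apply, PiLp.smul_apply, smul_eq_mul]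
    simp only [e1, e2, e3]
    rw [Finset.sum_add_distrib, Finset.sum_neg_distrib, add_neg_eq_zero]
    -- ∑ j k i = ∑ i k j
    rw [Finset.sum_comm]
    conv_rhs => rw [Finset.sum_comm]
    refine Finset.sum_congr rfl fun k _ => ?_
    rw [Finset.sum_comm]
  rw [scalarCurv_eq_traceK, traceK_eq_sum_xi hg₂ hx, traceK_eq_sum_xi hg₂ hx,
    lap_eq_traceK hg₂ hx hl2, traceK_eq_sum_xi hg₂ hx,
    divg_sum _ hg₂ hx (F := fun i y => Cd g g₂ y (ee i) (xi g₂ i y))
      (fun i => (hC.clm_apply (differentiableAt_const _)).clm_apply (hξ i)), map_sum]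
  simp only [h1, bil_hessM, hess_symm hg₂ hx hl2 (ee _)]
  rw [Finset.sum_add_distrib] at key
  simp only [Finset.sum_add_distrib, Finset.sum_sub_distrib]
  linarith

end Crest.Agent.N346.Id

end
end

-- ▼ part N346/Id/Conf

/-!
Row 346 (helper90): conformal change `g₂ = e^{2ψ} g`, `K₂ = e^{ψ} K` on an open set.
`Conf.riem, grad_eq, gam_eq, volDensity_eq, Cd_eq, divg_eq, hess_eq, lap_eq, ric_eq, scalar_eq,
traceK_eq, normSqK_eq, Jw_eq, energy_eq`, and `scalar_rpow` for `g₂ = u^{4/(n-2)} g`.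
-/

set_option autoImplicit false

open scoped ContDiff Topology
open Filter Set
open Crest.GeometryTopology.CoordMetric Crest.MathPhysics.ExteriorData
open Crest.Agent.R202.Tens Crest.Agent.R247.Bo84

noncomputable section

namespace Crest.Agent.N346.Id

variable {n : ℕ} {g g₂ : MetricField n} {U : Set (E n)} {x : E n}

/-- the Koszul formula for the difference of two Levi-Civita connections. -/
lemma bil_Cd (hg : IsRiemannianOn g U) (hg₂ : IsRiemannianOn g₂ U) (hx : x ∈ U)
    {N : E n → E n → E n → ℝ}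
    (hN : ∀ A B Z, fderiv ℝ (fun y => bil (g₂ y) B Z) x A =
      N A B Z + bil (g₂ x) (Gam g x A B) Z + bil (g₂ x) B (Gam g x A Z)) (A B Z : E n) :
    bil (g₂ x) (Cd g g₂ x A B) Z = (1 / 2) * (N A B Z + N B A Z - N Z A B) := by
  have h0 : ∀ A B Z : E n, fderiv ℝ (Gf g₂) x A B Z = fderiv ℝ (fun y => bil (g₂ y) B Z) x A := by
    intro A B Z
    have := fderiv_apply2 (G := Gf g₂) (Φ := fun z => z) (u := fun _ => B) (v := fun _ => Z)
        (y := x) (differentiableAt_Gf hg₂ hx) differentiableAt_id (differentiableAt_const _)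
        (differentiableAt_const _) A
    simp only [fderiv_fun_id, ContinuousLinearMap.coe_id', id_eq, fderiv_fun_const, Pi.zero_apply,
      zero_apply, map_zero, add_zero] at this
    exact this.symm
  have h1 := isLC hg₂ hx A B Z
  rw [h0, h0, h0, hN, hN, hN] at h1
  have e : Gf g₂ x (Gam g₂ x A B) Z = bil (g₂ x) (Gam g₂ x A B) Z := rfl
  rw [Cd_apply, map_sub, sub_apply, ← e, h1, Gam_symm hg hx B A, Gam_symm hg hx Z A,
    Gam_symm hg hx Z B, bil_symm hg₂ hx (Gam g x A Z) B]
  ring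

lemma fderiv_bil_const (hg : IsRiemannianOn g U) (hx : x ∈ U) (A B Z : E n) :
    fderiv ℝ (fun y => bil (g y) B Z) x A =
      bil (g x) (Gam g x A B) Z + bil (g x) B (Gam g x A Z) := by
  rw [fderiv_bil hg hx (differentiableAt_const B) (differentiableAt_const Z), cov_const, cov_const]

lemma differentiableAt_bil (hg : IsRiemannianOn g U) (hx : x ∈ U) {Y Z : E n → E n}
    (hY : DifferentiableAt ℝ Y x) (hZ : DifferentiableAt ℝ Z x) :
    DifferentiableAt ℝ (fun y => bil (g y) (Y y) (Z y)) x :=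
  ((differentiableAt_Gf hg hx).clm_apply hY).clm_apply hZ

/-- `g₂ = e^{2ψ} g` on `U`. -/
structure Conf (g g₂ : MetricField n) (ψ : E n → ℝ) (U : Set (E n)) : Prop where
  riem₁ : IsRiemannianOn g U
  smooth : ContDiffOn ℝ ∞ ψ U
  eq : ∀ y ∈ U, g₂ y = Real.exp (2 * ψ y) • g y

namespace Conf

variable {ψ : E n → ℝ}

lemma contDiffAt (h : Conf g g₂ ψ U) (hx : x ∈ U) : ContDiffAt ℝ ∞ ψ x :=
  h.smooth.contDiffAt (h.riem₁.isOpen.mem_nhds hx)

lemma riem (h : Conf g g₂ ψ U) : IsRiemannianOn g₂ U := by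
  refine ⟨h.riem₁.isOpen, fun i j => ?_, fun y hy => ?_⟩
  · refine ContDiffOn.congr (f := fun y => Real.exp (2 * ψ y) * g y i j)
      (((contDiffOn_const.mul h.smooth).exp).mul (h.riem₁.contDiffOn i j)) fun y hy => ?_
    rw [h.eq y hy, Matrix.smul_apply, smul_eq_mul]
  · rw [h.eq y hy]
    exact (h.riem₁.posDef y hy).smul (Real.exp_pos _)

lemma bil_eq (h : Conf g g₂ ψ U) (hx : x ∈ U) (A B : E n) :
    bil (g₂ x) A B = Real.exp (2 * ψ x) * bil (g x) A B := by
  rw [h.eq x hx, bil_smul]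

lemma grad_eq (h : Conf g g₂ ψ U) (hx : x ∈ U) (u : E n → ℝ) :
    grad g₂ u x = Real.exp (-(2 * ψ x)) • grad g u x := by
  refine bil_injective h.riem hx fun Z => ?_
  rw [bil_grad h.riem hx, h.bil_eq hx, map_smul, smul_apply, bil_grad h.riem₁ hx, smul_eq_mul,
    ← mul_assoc, ← Real.exp_add]
  simp

lemma gam_eq (h : Conf g g₂ ψ U) (hx : x ∈ U) (u v : E n → ℝ) :
    gam g₂ u v x = Real.exp (-(2 * ψ x)) * gam g u v x := by
  rw [gam_eq_fderiv_grad, h.grad_eq hx, map_smul, gam_eq_fderiv_grad, smul_eq_mul]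

lemma shp_eq (h : Conf g g₂ ψ U) (hx : x ∈ U) (T : MetricField n) :
    shp g₂ T x = Real.exp (-(2 * ψ x)) • shp g T x := by
  refine shp_eq_of_bil h.riem hx fun Y Z => ?_
  rw [h.bil_eq hx, smul_apply, map_smul, smul_apply, bil_shp h.riem₁ hx, smul_eq_mul,
    ← mul_assoc, ← Real.exp_add]
  simp

lemma volDensity_eq (h : Conf g g₂ ψ U) (hx : x ∈ U) :
    volDensity g₂ x = Real.exp (n * ψ x) * volDensity g x := by
  rw [volDensity, h.eq x hx, Matrix.det_smul, Fintype.card_fin, ← Real.exp_nat_mul,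
    Real.sqrt_mul (Real.exp_pos _).le, ← Real.exp_half, volDensity]
  congr 2
  ring

/-- `C(A, B) = dψ(A) B + dψ(B) A - g(A, B) ∇ψ`. -/
lemma Cd_eq (h : Conf g g₂ ψ U) (hx : x ∈ U) (A B : E n) :
    Cd g g₂ x A B = fderiv ℝ ψ x A • B + fderiv ℝ ψ x B • A - bil (g x) A B • grad g ψ x := by
  have hψ : DifferentiableAt ℝ ψ x := (h.contDiffAt hx).differentiableAt (by simp)
  refine bil_injective h.riem hx fun Z => ?_
  rw [bil_Cd h.riem₁ h.riem hx
    (N := fun A B Z => 2 * fderiv ℝ ψ x A * Real.exp (2 * ψ x) * bil (g x) B Z)]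
  · simp only [h.bil_eq hx, map_sub, map_add, map_smul, sub_apply, add_apply, smul_apply,
      smul_eq_mul, bil_grad h.riem₁ hx]
    ring
  · intro A B Z
    have e1 : (fun y => bil (g₂ y) B Z) =ᶠ[𝓝 x] fun y => Real.exp (2 * ψ y) * bil (g y) B Z := by
      filter_upwards [h.riem₁.isOpen.mem_nhds hx] with y hy using h.bil_eq hy B Z
    have e2 : HasFDerivAt (fun y => Real.exp (2 * ψ y))
        (Real.exp (2 * ψ x) • ((2:ℝ) • fderiv ℝ ψ x)) x := (hψ.hasFDerivAt.const_mul 2).exp
    rw [e1.fderiv_eq, fderiv_fun_mul e2.differentiableAt (differentiableAt_bil h.riem₁ hx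
      (differentiableAt_const B) (differentiableAt_const Z)), e2.fderiv]
    simp only [add_apply, smul_apply, smul_eq_mul, fderiv_bil_const h.riem₁ hx, h.bil_eq hx]
    ring

lemma Cd_eq' (h : Conf g g₂ ψ U) (hx : x ∈ U) (A : E n) :
    Cd g g₂ x A = fderiv ℝ ψ x A • ContinuousLinearMap.id ℝ (E n) + (fderiv ℝ ψ x).smulRight A
      - (bil (g x) A).smulRight (grad g ψ x) := by
  ext1 B
  rw [h.Cd_eq hx]
  simp

lemma trL_Cd (h : Conf g g₂ ψ U) (hx : x ∈ U) (Z : E n) :
    trL (Cd g g₂ x Z) = fderiv ℝ (fun y => (n : ℝ) * ψ y) x Z := by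
  have hψ : DifferentiableAt ℝ ψ x := (h.contDiffAt hx).differentiableAt (by simp)
  rw [h.Cd_eq' hx, map_sub, map_add, map_smul, trL_id, trL_smulRight, trL_smulRight,
    fderiv_const_mul hψ, bil_symm h.riem₁ hx, bil_grad h.riem₁ hx]
  simp only [smul_eq_mul, smul_apply]
  ring

lemma divg_eq (h : Conf g g₂ ψ U) (hx : x ∈ U) {Y : E n → E n} (hY : DifferentiableAt ℝ Y x) :
    divg g₂ Y x = divg g Y x + n * fderiv ℝ ψ x (Y x) := by
  have hψ : DifferentiableAt ℝ ψ x := (h.contDiffAt hx).differentiableAt (by simp)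
  rw [divg_two h.riem₁ h.riem hx (h.trL_Cd hx) hY, fderiv_const_mul hψ]
  rfl

lemma hess_eq (h : Conf g g₂ ψ U) (hx : x ∈ U) (u : E n → ℝ) (A B : E n) :
    hess g₂ u x A B = hess g u x A B - fderiv ℝ ψ x A * fderiv ℝ u x B
      - fderiv ℝ ψ x B * fderiv ℝ u x A + bil (g x) A B * gam g u ψ x := by
  rw [hess_two g g₂, h.Cd_eq hx, gam_eq_fderiv_grad]
  simp only [map_sub, map_add, map_smul, smul_eq_mul]
  ring

lemma hasFDerivAt_exp (h : Conf g g₂ ψ U) (hx : x ∈ U) (c : ℝ) :
    HasFDerivAt (fun y => Real.exp (-(c * ψ y)))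
      (Real.exp (-(c * ψ x)) • (-(c • fderiv ℝ ψ x))) x :=
  ((((h.contDiffAt hx).differentiableAt (by simp)).hasFDerivAt.const_mul c).neg).exp

lemma lap_eq (h : Conf g g₂ ψ U) (hx : x ∈ U) {u : E n → ℝ} (hu : ContDiffAt ℝ 2 u x) :
    laplaceBeltrami g₂ u x =
      Real.exp (-(2 * ψ x)) * (laplaceBeltrami g u x + (n - 2) * gam g ψ u x) := by
  have e1 : grad g₂ u =ᶠ[𝓝 x] fun y => Real.exp (-(2 * ψ y)) • grad g u y := by
    filter_upwards [h.riem₁.isOpen.mem_nhds hx] with y hy using h.grad_eq hy u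
  have e2 := h.hasFDerivAt_exp hx 2
  rw [← divg_grad, h.divg_eq hx (differentiableAt_grad h.riem hx hu), divg_congr e1,
    divg_smul h.riem₁ hx e2.differentiableAt (differentiableAt_grad h.riem₁ hx hu), e2.fderiv,
    divg_grad, h.grad_eq hx, gam_eq_fderiv_grad]
  simp only [map_smul, smul_apply, neg_apply, smul_eq_mul]
  ring

/-- conformal change of the Ricci tensor. -/
theorem ric_eq (h : Conf g g₂ ψ U) (hx : x ∈ U) (A B : E n) :
    bil (ricM g₂ x) A B = bil (ricM g x) A B
      - (n - 2) * (hess g ψ x A B - fderiv ℝ ψ x A * fderiv ℝ ψ x B)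
      - (laplaceBeltrami g ψ x + (n - 2) * gam g ψ ψ x) * bil (g x) A B := by
  have hg := h.riem₁
  have hψ2 : ContDiffAt ℝ 2 ψ x := (h.contDiffAt hx).of_le (by norm_cast)
  have hψ : DifferentiableAt ℝ ψ x := hψ2.differentiableAt (by norm_num)
  have hdψ : DifferentiableAt ℝ (fderiv ℝ ψ) x :=
    (hψ2.fderiv_right (m := 1) (by norm_num)).differentiableAt (by norm_num)
  have h1 := ricci_two hg h.riem hx (l := fun y => (n : ℝ) * ψ y) (contDiffAt_const.mul hψ2)
    (fun y hy => h.trL_Cd hy) (W := fun _ => A) (Y := fun _ => B) contDiffAt_const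
    (differentiableAt_const _)
  have e1 : (fun y => Cd g g₂ y A B) =ᶠ[𝓝 x] fun y =>
      (fderiv ℝ ψ y A • B + fderiv ℝ ψ y B • A) - bil (g y) A B • grad g ψ y := by
    filter_upwards [hg.isOpen.mem_nhds hx] with y hy using h.Cd_eq hy A B
  have dA : DifferentiableAt ℝ (fun y => fderiv ℝ ψ y A) x :=
    hdψ.clm_apply (differentiableAt_const _)
  have dB : DifferentiableAt ℝ (fun y => fderiv ℝ ψ y B) x :=
    hdψ.clm_apply (differentiableAt_const _)
  have dg : DifferentiableAt ℝ (fun y => bil (g y) A B) x :=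
    differentiableAt_bil hg hx (differentiableAt_const _) (differentiableAt_const _)
  have dgr := differentiableAt_grad hg hx hψ2
  have cA : DifferentiableAt ℝ (fun _ : E n => A) x := differentiableAt_const _
  have cB : DifferentiableAt ℝ (fun _ : E n => B) x := differentiableAt_const _
  rw [divg_congr e1,
    divg_sub hg hx ((dA.fun_smul cB).fun_add (dB.fun_smul cA)) (dg.fun_smul dgr),
    divg_add hg hx (dA.fun_smul cB) (dB.fun_smul cA), divg_smul hg hx dA cB, divg_smul hg hx dB cA,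
    divg_smul hg hx dg dgr, divg_grad, fderiv_fderiv_apply hψ2 cA g, fderiv_fderiv_apply hψ2 cB g,
    fderiv_bil_const hg hx, divg_eq_trL hg hx cA, divg_eq_trL hg hx cB, hess_const_mul _ hψ2,
    fderiv_const_mul hψ, h.Cd_eq' hx A, h.Cd_eq' hx B] at h1
  have hgr : ∀ Z, bil (g x) Z (grad g ψ x) = fderiv ℝ ψ x Z := fun Z => by
    rw [bil_symm hg hx, bil_grad hg hx]
  simp only [ContinuousLinearMap.comp_add, ContinuousLinearMap.add_comp,
    ContinuousLinearMap.comp_sub, ContinuousLinearMap.sub_comp, ContinuousLinearMap.comp_smul,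
    ContinuousLinearMap.smul_comp, ContinuousLinearMap.comp_id, ContinuousLinearMap.id_comp,
    map_add, map_sub, map_smul, trL_comp_smulRight, trL_smulRight_comp, trL_smulRight, trL_id,
    smul_eq_mul, add_apply, sub_apply, smul_apply, ContinuousLinearMap.smulRight_apply,
    ContinuousLinearMap.id_apply, cov_const, hgr] at h1
  rw [h1, gam_eq_fderiv_grad, hess_symm hg hx hψ2 B A, bil_symm hg hx B A,
    bil_symm hg hx B (Gam g x (grad g ψ x) A), Gam_symm hg hx B A]
  ring

/-- conformal change of the scalar curvature. -/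
theorem scalar_eq (h : Conf g g₂ ψ U) (hx : x ∈ U) :
    scalarCurv g₂ x = Real.exp (-(2 * ψ x)) * (scalarCurv g x
      - 2 * (n - 1) * laplaceBeltrami g ψ x - (n - 1) * (n - 2) * gam g ψ ψ x) := by
  have hg := h.riem₁
  have hψ2 : ContDiffAt ℝ 2 ψ x := (h.contDiffAt hx).of_le (by norm_cast)
  rw [scalarCurv_eq_traceK, traceK_eq h.riem hx, h.shp_eq hx, map_smul, ← traceK_eq hg hx,
    traceK_eq_sum_xi hg hx, smul_eq_mul]
  congr 1
  have e1 : ∀ i, bil (g x) (ee i) (xi g i x) = 1 := fun i => by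
    rw [bil_symm hg hx, bil_xi hg hx]; simp
  have e2 : ∑ i, fderiv ℝ ψ x (ee i) * fderiv ℝ ψ x (xi g i x) = gam g ψ ψ x := by
    rw [gam_eq_fderiv_grad, ← sum_xi_clm hg hx]
    simp only [bil_grad hg hx]
  simp only [h.ric_eq hx, e1, Finset.sum_sub_distrib, ← Finset.mul_sum, e2, ← bil_hessM]
  rw [← traceK_eq_sum_xi hg hx, ← traceK_eq_sum_xi hg hx, ← lap_eq_traceK hg hx hψ2,
    ← scalarCurv_eq_traceK]
  simp only [Finset.sum_const, Finset.card_univ, Fintype.card_fin, nsmul_eq_mul]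
  ring

variable {K K₂ : MetricField n}

lemma shpK_eq (h : Conf g g₂ ψ U) (hK : ∀ y ∈ U, K₂ y = Real.exp (ψ y) • K y) (hx : x ∈ U) :
    shp g₂ K₂ x = Real.exp (-ψ x) • shp g K x := by
  have e : shp g K₂ x = Real.exp (ψ x) • shp g K x := by
    rw [shp, shp, hK x hx, Matrix.mul_smul, mat_smul]
  rw [h.shp_eq hx, e, smul_smul, ← Real.exp_add]
  congr 2
  ring

lemma traceK_eq (h : Conf g g₂ ψ U) (hK : ∀ y ∈ U, K₂ y = Real.exp (ψ y) • K y) (hx : x ∈ U) :
    traceK g₂ K₂ x = Real.exp (-ψ x) * traceK g K x := by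
  rw [Id.traceK_eq h.riem hx, Id.traceK_eq h.riem₁ hx, h.shpK_eq hK hx, map_smul, smul_eq_mul]

lemma symT (h : Conf g g₂ ψ U) (hS : SymT K U) (hK : ∀ y ∈ U, K₂ y = Real.exp (ψ y) • K y) :
    SymT K₂ U := by
  refine ⟨fun i j => ?_, fun y hy i j => ?_⟩
  · refine ContDiffOn.congr (f := fun y => Real.exp (ψ y) * K y i j)
      ((h.smooth.exp).mul (hS.smooth i j)) fun y hy => ?_
    rw [hK y hy, Matrix.smul_apply, smul_eq_mul]
  · rw [hK y hy, Matrix.smul_apply, Matrix.smul_apply, hS.symm y hy]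

lemma normSqK_eq (h : Conf g g₂ ψ U) (hS : SymT K U)
    (hK : ∀ y ∈ U, K₂ y = Real.exp (ψ y) • K y) (hx : x ∈ U) :
    normSqK g₂ K₂ x = Real.exp (-(2 * ψ x)) * normSqK g K x := by
  rw [Id.normSqK_eq h.riem hx ((h.symT hS hK).symm x hx), Id.normSqK_eq h.riem₁ hx (hS.symm x hx),
    h.shpK_eq hK hx, ContinuousLinearMap.comp_smul, ContinuousLinearMap.smul_comp, smul_smul,
    map_smul, smul_eq_mul, ← Real.exp_add]
  congr 2
  ring

theorem energy_eq (h : Conf g g₂ ψ U) (hS : SymT K U)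
    (hK : ∀ y ∈ U, K₂ y = Real.exp (ψ y) • K y) (hx : x ∈ U) :
    energyDensity g₂ K₂ x = Real.exp (-(2 * ψ x)) * (energyDensity g K x
      - (n - 1) * laplaceBeltrami g ψ x - (n - 1) * (n - 2) / 2 * gam g ψ ψ x) := by
  have e : Real.exp (-ψ x) ^ 2 = Real.exp (-(2 * ψ x)) := by
    rw [← Real.exp_nat_mul]; congr 1; push_cast; ring
  rw [energyDensity, energyDensity, h.scalar_eq hx, h.traceK_eq hK hx, h.normSqK_eq hS hK hx,
    mul_pow, e]
  ring

/-- conformal change of the momentum density. -/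
theorem Jw_eq (h : Conf g g₂ ψ U) (hS : SymT K U)
    (hK : ∀ y ∈ U, K₂ y = Real.exp (ψ y) • K y) (hx : x ∈ U) (A : E n) :
    Jw g₂ K₂ x A =
      Real.exp (-ψ x) * (Jw g K x A + (n - 1) * bil (K x) (grad g ψ x) A) := by
  have hg := h.riem₁
  have cA : DifferentiableAt ℝ (fun _ : E n => A) x := differentiableAt_const _
  have h1 := Id.Jw_eq hg hx hS cA
  have h2 := Id.Jw_eq h.riem hx (h.symT hS hK) cA
  have hKc := hS.contDiffAt hg.isOpen hx
  have e0 : HasFDerivAt (fun y => Real.exp (-ψ y)) (Real.exp (-ψ x) • (-fderiv ℝ ψ x)) x :=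
    (((h.contDiffAt hx).differentiableAt (by simp)).hasFDerivAt.neg).exp
  have e1 : tv g₂ K₂ (fun _ => A) =ᶠ[𝓝 x] fun y => Real.exp (-ψ y) • tv g K (fun _ => A) y := by
    filter_upwards [hg.isOpen.mem_nhds hx] with y hy
    rw [tv, h.shpK_eq hK hy]; rfl
  have e2 : traceK g₂ K₂ =ᶠ[𝓝 x] fun y => Real.exp (-ψ y) * traceK g K y := by
    filter_upwards [hg.isOpen.mem_nhds hx] with y hy using h.traceK_eq hK hy
  have d1 : DifferentiableAt ℝ (tv g K fun _ => A) x :=
    (contDiffAt_tv hg hx le_rfl hKc contDiffAt_const).differentiableAt (by simp)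
  have d2 : DifferentiableAt ℝ (traceK g K) x :=
    (contDiffAt_traceK hg hx le_rfl hKc).differentiableAt (by simp)
  rw [divg_congr e1, h.divg_eq hx (e0.differentiableAt.fun_smul d1),
    divg_smul hg hx e0.differentiableAt d1, e2.fderiv_eq, fderiv_fun_mul e0.differentiableAt d2,
    e0.fderiv, h.shpK_eq hK hx, cov_two hg h.riem hx, h.Cd_eq' hx] at h2
  have e3 : ∀ Z, fderiv ℝ ψ x (shp g K x Z) = bil (K x) (grad g ψ x) Z := fun Z => by
    rw [← bil_grad hg hx, bil_shp' hg hx]
  have e4 : bil (g x) A (shp g K x (grad g ψ x)) = bil (K x) (grad g ψ x) A := by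
    rw [bil_shp' hg hx, hS.bil_symm hx]
  simp only [ContinuousLinearMap.comp_add, ContinuousLinearMap.comp_sub,
    ContinuousLinearMap.comp_smul, ContinuousLinearMap.smul_comp, ContinuousLinearMap.comp_id,
    map_add, map_sub, map_smul, trL_comp_smulRight, smul_eq_mul, add_apply, smul_apply, neg_apply,
    tv, e3, e4, ← Id.traceK_eq hg hx] at h1 h2
  rw [h1, h2]
  ring

end Conf


end Crest.Agent.N346.Id

end
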